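import Vale.Agent.P354XQ.Main

/-!
The space of asymptotically flat data is a Baire space.
-/

open scoped ContDiff ENNReal
open Set Filter Topology

namespace Vale.Agent.P354XU

open Vale.Agent.P354I (X Dat pd)
open Vale.Agent.P354T (Sm DSm iter_sub pow_pos' qf qf_close posDef_of symm_of up_compact constr_lim
  baire_of_local)
open Vale.Agent.P354XS Vale.Agent.P354XQ

/-- Limits of sequences that are Cauchy for all weighted norms. -/
theorem lim_fun {w : X → ℝ} (w0 : ∀ y ≠ 0, 0 < w y) (wc : ContinuousOn w {0}ᶜ) {F : ℕ → X → ℝ}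
    (hF : ∀ n, Sm (F n)) (hC : ∀ (m : ℕ) (ε : ℝ), 0 < ε → ∃ N, ∀ n ≥ N, ∀ n' ≥ N,
      wq w m (fun y => F n y - F n' y) ≤ ENNReal.ofReal ε) :
    ∃ G, Sm G ∧ (∀ j, ∀ y ≠ 0, Tendsto (fun n => iteratedFDeriv ℝ j (F n) y) atTop
        (𝓝 (iteratedFDeriv ℝ j G y))) ∧
      ∀ (m : ℕ) (ε : ℝ), 0 < ε → ∃ N, ∀ n ≥ N,
        wq w m (fun y => F n y - G y) ≤ ENNReal.ofReal ε := by
  have wp : ∀ j, ∀ y : X, y ≠ 0 → 0 < w y * ‖y‖ ^ (2 + j) := fun j y hy =>
    mul_pos (w0 y hy) (pow_pos (norm_pos_iff.2 hy) _)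
  have hp : ∀ (m : ℕ) (ε : ℝ), 0 < ε → ∃ N, ∀ n ≥ N, ∀ n' ≥ N, ∀ j ≤ m, ∀ y ≠ 0,
      w y * ‖y‖ ^ (2 + j) * ‖iteratedFDeriv ℝ j (F n) y - iteratedFDeriv ℝ j (F n') y‖ ≤ ε := by
    intro m ε hε
    obtain ⟨N, hN⟩ := hC m ε hε
    refine ⟨N, fun n hn n' hn' j hj y hy => ?_⟩
    rw [← iter_sub (hF n) (hF n') j hy]
    exact le_of_wq hj hε.le (hN n hn n' hn') hy
  let g : X → FormalMultilinearSeries ℝ X ℝ := fun y j =>
    limUnder atTop fun n => iteratedFDeriv ℝ j (F n) y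
  have hg : ∀ j, ∀ y ≠ 0, Tendsto (fun n => iteratedFDeriv ℝ j (F n) y) atTop (𝓝 (g y j)) := by
    intro j y hy
    refine CauchySeq.tendsto_limUnder (Metric.cauchySeq_iff.2 fun ε hε => ?_)
    obtain ⟨N, hN⟩ := hp j (w y * ‖y‖ ^ (2 + j) * (ε / 2)) (mul_pos (wp j y hy) (by positivity))
    refine ⟨N, fun n hn n' hn' => ?_⟩
    have := le_of_mul_le_mul_left (hN n hn n' hn' j le_rfl y hy) (wp j y hy)
    rw [dist_eq_norm]
    linarith
  have hq : ∀ (m : ℕ) (ε : ℝ), 0 < ε → ∃ N, ∀ n ≥ N, ∀ j ≤ m, ∀ y ≠ 0,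
      w y * ‖y‖ ^ (2 + j) * ‖iteratedFDeriv ℝ j (F n) y - g y j‖ ≤ ε := by
    intro m ε hε
    obtain ⟨N, hN⟩ := hp m ε hε
    refine ⟨N, fun n hn j hj y hy => ?_⟩
    refine le_of_tendsto (((tendsto_const_nhds.sub (hg j y hy)).norm).const_mul _) ?_
    filter_upwards [eventually_ge_atTop N] with n' hn' using hN n hn n' hn' j hj y hy
  have hd : ∀ j, ∀ y ≠ 0, HasFDerivAt (fun z => g z j) (g y (j + 1)).curryLeft y := by
    intro j y hy
    have hr : 0 < ‖y‖ / 2 := half_pos (norm_pos_iff.2 hy)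
    have hb : ∀ z ∈ Metric.closedBall y (‖y‖ / 2), z ≠ 0 := by
      rintro z hz rfl
      rw [Metric.mem_closedBall, dist_zero_left] at hz
      linarith
    obtain ⟨c, hc0, hc1⟩ := (isCompact_closedBall y (‖y‖ / 2)).exists_forall_le'
      (f := fun z => w z * ‖z‖ ^ (2 + (j + 1)))
      ((wc.mono fun z hz => hb z hz).mul (continuous_norm.pow _).continuousOn) (a := 0)
      fun z hz => wp _ z (hb z hz)
    refine hasFDerivAt_of_tendstoUniformlyOn (l := atTop) (s := Metric.ball y (‖y‖ / 2))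
      (f := fun n => iteratedFDeriv ℝ j (F n))
      (f' := fun n z => (iteratedFDeriv ℝ (j + 1) (F n) z).curryLeft)
      (g' := fun z => (g z (j + 1)).curryLeft)
      Metric.isOpen_ball ?_ (fun n z hz => ?_)
      (fun z hz => hg j z (hb z (Metric.ball_subset_closedBall hz))) (Metric.mem_ball_self hr)
    · rw [Metric.tendstoUniformlyOn_iff]
      intro ε hε
      obtain ⟨N, hN⟩ := hq (j + 1) (c * (ε / 2)) (by positivity)
      filter_upwards [eventually_ge_atTop N] with n hn z hz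
      have hz' := Metric.ball_subset_closedBall hz
      have h1 := hN n hn (j + 1) le_rfl z (hb z hz')
      have h2 := mul_le_mul_of_nonneg_right (hc1 z hz')
        (norm_nonneg (iteratedFDeriv ℝ (j + 1) (F n) z - g z (j + 1)))
      have h3 := le_of_mul_le_mul_left (h2.trans h1) hc0
      have h4 : dist (g z (j + 1)).curryLeft (iteratedFDeriv ℝ (j + 1) (F n) z).curryLeft =
          dist (g z (j + 1)) (iteratedFDeriv ℝ (j + 1) (F n) z) :=
        (continuousMultilinearCurryLeftEquiv ℝ (fun _ : Fin (j + 1) => X) ℝ).dist_map _ _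
      rw [h4, dist_comm, dist_eq_norm]
      linarith
    · exact (((hF n).at (hb z (Metric.ball_subset_closedBall hz))).differentiableAt_iteratedFDeriv
        (m := j) (by exact_mod_cast ENat.natCast_lt_top j)).hasFDerivAt
  let G : X → ℝ := fun y => (g y 0).curry0
  have hT : HasFTaylorSeriesUpToOn ∞ G g {0}ᶜ :=
    (hasFTaylorSeriesUpToOn_top_iff' le_rfl).2
      ⟨fun _ _ => rfl, fun m y hy => (hd m y hy).hasFDerivWithinAt⟩
  have hG : Sm G := hT.contDiffOn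
  have he : ∀ j, ∀ y ≠ 0, iteratedFDeriv ℝ j G y = g y j := by
    intro j y hy
    rw [hT.eq_iteratedFDerivWithin_of_uniqueDiffOn (m := j) (by exact_mod_cast le_top)
      isOpen_compl_singleton.uniqueDiffOn hy,
      iteratedFDerivWithin_of_isOpen j isOpen_compl_singleton hy]
  refine ⟨G, hG, fun j y hy => by rw [he j y hy]; exact hg j y hy, fun m ε hε => ?_⟩
  obtain ⟨N, hN⟩ := hq m (ε / (m + 1)) (by positivity)
  refine ⟨N, fun n hn => (wq_le_of (η := ε / (m + 1)) fun j hj y hy => ?_).trans (le_of_eq ?_)⟩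
  · rw [iter_sub (hF n) hG j hy, he j y hy]
    exact hN n hn j hj y hy
  · congr 1
    field_simp

lemma wi_cont : ContinuousOn wi {0}ᶜ :=
  (continuous_norm.continuousOn.add (continuous_norm.continuousOn.inv₀
    fun _ hy => norm_ne_zero_iff.2 hy)).inv₀ fun _ hy => (W_pos hy).ne'

/-- Uniform positivity for the weight of the seminorms. -/
def UP (d : Dat) (c : ℝ) : Prop :=
  ∀ y ≠ 0, ∀ v, c * ∑ i, v i ^ 2 ≤ wi y * ‖y‖ ^ 2 * qf (d.h y) v

lemma h_close {η : ℝ} {d d' : Dat} (hη : 0 ≤ η) (h : qm 0 d d' ≤ ENNReal.ofReal η) {y : X}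
    (hy : y ≠ 0) (v : Fin 3 → ℝ) : wi y * ‖y‖ ^ 2 * qf (d'.h y) v - 3 * η * ∑ i, v i ^ 2 ≤
      wi y * ‖y‖ ^ 2 * qf (d.h y) v :=
  qf_close (mul_nonneg (wi_pos hy).le (sq_nonneg _)) (fun i j => by
    have := le_of_wq le_rfl hη (qm_parts h i j).1 hy
    rwa [norm_iteratedFDeriv_zero, Real.norm_eq_abs] at this) v

lemma UP.near {η c : ℝ} {d d' : Dat} (h : UP d' c) (hη : 0 ≤ η)
    (hd : qm 0 d d' ≤ ENNReal.ofReal η) : UP d (c - 3 * η) := fun y hy v => by
  have h1 := h_close hη hd hy v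
  have h2 := h y hy v
  linarith

lemma UP.pos {c : ℝ} {d : Dat} (h : UP d c) (hc : 0 < c) {y : X} (hy : y ≠ 0)
    (hs : (d.h y).IsSymm) : (d.h y).PosDef := by
  refine posDef_of hs fun v hv => ?_
  obtain ⟨i, hi⟩ := Function.ne_iff.1 hv
  have h1 : 0 < ∑ i, v i ^ 2 :=
    Finset.sum_pos' (fun _ _ => sq_nonneg _) ⟨i, Finset.mem_univ _, sq_pos_of_ne_zero hi⟩
  have h2 := (mul_pos hc h1).trans_le (h y hy v)
  exact (pos_iff_pos_of_mul_pos h2).1 (mul_pos (wi_pos hy) (pow_pos (norm_pos_iff.2 hy) 2))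

variable {M a : ℝ}

/-- The Kerr metric grows like the weight. -/
lemma ds_ge (h : |a| < M) : ∃ C > 0, ∀ y ≠ 0, ∀ v : Fin 3 → ℝ,
    W y * ∑ i, v i ^ 2 ≤ C * (wi y * ‖y‖ ^ 2 * qf ((ds M a).h y) v) := by
  have he := e_pos h
  refine ⟨(1 + 4 / (M ^ 2 - a ^ 2)) ^ 2, by positivity, fun y hy v => ?_⟩
  have h1 : 0 ≤ ∑ i, v i ^ 2 := Finset.sum_nonneg fun _ _ => sq_nonneg _
  have h2 : qf ((ds M a).h y) v =
      al M a y * ∑ i, v i ^ 2 + be M a y * (∑ i, v i * pp i y) ^ 2 := by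
    simp [qf, h_eq, Fin.sum_univ_three]
    ring
  have h3 : W y = wi y * ‖y‖ ^ 2 * ps y ^ 2 := by
    have := (W_pos hy).ne'
    have := norm_ne_zero_iff.2 hy
    rw [show wi y = (W y)⁻¹ from rfl, ps]
    field_simp
  have h4 : 0 ≤ wi y * ‖y‖ ^ 2 := mul_nonneg (wi_pos hy).le (sq_nonneg _)
  have h5 := mul_le_mul_of_nonneg_left (mul_le_mul_of_nonneg_right (ps_le_al h hy) h1) h4
  have h6 := mul_nonneg (sq_nonneg (1 + 4 / (M ^ 2 - a ^ 2))) (mul_nonneg h4
    (mul_nonneg (be_nonneg h hy) (sq_nonneg (∑ i, v i * pp i y))))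
  rw [h2, h3]
  nlinarith

/-- All data are uniformly positive. -/
lemma up_all (h : |a| < M) (d : DA M a) : ∃ c > 0, UP d.1 c := by
  obtain ⟨C, C0, hC⟩ := ds_ge h
  obtain ⟨P, P0, hd⟩ : ∃ P, 0 ≤ P ∧ qm 0 d.1 (ds M a) ≤ ENNReal.ofReal P :=
    ⟨_, ENNReal.toReal_nonneg, (ENNReal.ofReal_toReal (d.2.2.2 0).ne).ge⟩
  obtain ⟨L, L0, hL⟩ : ∃ L, 0 < L ∧ L = C * (3 * P + 1) := ⟨_, by positivity, rfl⟩
  obtain ⟨c, c0, c1⟩ := up_compact (dsm d) (fun y hy => (d.2.1.2 y hy).1)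
    (K := Metric.closedBall 0 L \ Metric.ball 0 L⁻¹)
    ((isCompact_closedBall _ _).diff Metric.isOpen_ball) fun y hy e =>
      hy.2 (by rw [e]; exact Metric.mem_ball_self (inv_pos.2 L0))
  refine ⟨min 1 (c / (2 * L)), by positivity, fun y hy v => ?_⟩
  have v0 : 0 ≤ ∑ i, v i ^ 2 := Finset.sum_nonneg fun _ _ => sq_nonneg _
  have n0 : 0 < ‖y‖ := norm_pos_iff.2 hy
  have n1 := inv_pos.2 n0
  by_cases hl : L ≤ W y
  · have h1 := h_close P0 hd hy v
    have h2 := (mul_le_mul_of_nonneg_right hl v0).trans (hC y hy v)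
    rw [hL, mul_assoc] at h2
    have h3 := le_of_mul_le_mul_left h2 C0
    have h4 := mul_le_mul_of_nonneg_right (min_le_left 1 (c / (2 * L))) v0
    linarith
  · have h1 : ‖y‖ + ‖y‖⁻¹ < L := not_le.1 hl
    have h2 := c1 y ⟨mem_closedBall_zero_iff.2 (by linarith), by
      rw [mem_ball_zero_iff, not_lt]
      exact (inv_le_comm₀ L0 n0).2 (by linarith)⟩ v
    have h3 : (2 * L)⁻¹ ≤ wi y := inv_anti₀ (by linarith) (by linarith)
    refine (mul_le_mul_of_nonneg_right (min_le_right _ _) v0).trans ?_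
    rw [div_eq_inv_mul, mul_assoc, mul_assoc]
    exact mul_le_mul h3 h2 (by positivity) (wi_pos hy).le

/-- Cauchy sequences of uniformly positive data converge. -/
theorem lim_data (hk : DSm (ds M a)) {c : ℝ} (hc : 0 < c) {u : ℕ → DA M a}
    (hu : ∀ n, UP (u n).1 c) (hC : ∀ (m : ℕ) (ε : ℝ), 0 < ε → ∃ N, ∀ n ≥ N, ∀ n' ≥ N,
      qm m (u n).1 (u n').1 ≤ ENNReal.ofReal ε) :
    ∃ d : DA M a, ∀ (m : ℕ) (ε : ℝ), 0 < ε → ∃ N, ∀ n ≥ N,
      qm m (u n).1 d.1 ≤ ENNReal.ofReal ε := by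
  have lh := fun i j => lim_fun (fun _ => wi_pos) wi_cont (fun n => (dsm (u n) i j).1) fun m ε hε =>
    (hC m ε hε).imp fun N hN n hn n' hn' => (qm_parts (hN n hn n' hn') i j).1
  have lK := fun i j => lim_fun (w := 1) (fun _ _ => one_pos) continuousOn_const
    (fun n => (dsm (u n) i j).2) fun m ε hε =>
      (hC m ε hε).imp fun N hN n hn n' hn' => (qm_parts (hN n hn n' hn') i j).2
  choose Gh sh th ch using lh
  choose GK sK tK cK using lK
  let d : Dat := ⟨fun y => Matrix.of fun i j => Gh i j y, fun y => Matrix.of fun i j => GK i j y⟩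
  have sd : DSm d := fun i j => ⟨sh i j, sK i j⟩
  have conv : ∀ (m : ℕ) (ε : ℝ), 0 < ε → ∃ N, ∀ n ≥ N, qm m (u n).1 d ≤ ENNReal.ofReal ε := by
    intro m ε hε
    have h7 : 0 < ε / 18 := by positivity
    have e : ∀ᶠ n in atTop, ∀ i j, wq wi m (fun y => (u n).1.h y i j - d.h y i j) ≤
        ENNReal.ofReal (ε / 18) ∧ wq 1 m (fun y => (u n).1.K y i j - d.K y i j) ≤
        ENNReal.ofReal (ε / 18) :=
      eventually_all.2 fun i => eventually_all.2 fun j =>
        (eventually_atTop.2 (ch i j m _ h7)).and (eventually_atTop.2 (cK i j m _ h7))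
    obtain ⟨N, hN⟩ := eventually_atTop.1 e
    refine ⟨N, fun n hn => (qm_le_of h7.le (hN n hn)).trans (le_of_eq ?_)⟩
    congr 1
    ring
  have t0 : ∀ {F : ℕ → X → ℝ} {G : X → ℝ} {y : X}, Tendsto (fun n => iteratedFDeriv ℝ 0 (F n) y)
      atTop (𝓝 (iteratedFDeriv ℝ 0 G y)) → Tendsto (fun n => F n y) atTop (𝓝 (G y)) := fun h => by
    have := ((continuousMultilinearCurryFin0 ℝ X ℝ).continuous.tendsto _).comp h
    simpa [Function.comp_def] using this
  have hpos : ∀ y ≠ 0, (d.h y).PosDef := by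
    intro y hy
    obtain ⟨N, hN⟩ := conv 0 (c / 6) (by positivity)
    have h1 := hN N le_rfl
    rw [qm_comm] at h1
    refine ((hu N).near (by positivity) h1).pos (by linarith) hy ?_
    refine Matrix.IsSymm.ext fun i j => tendsto_nhds_unique (t0 (th j i 0 y hy)) ?_
    exact (t0 (th i j 0 y hy)).congr fun n => ((symm_of ((u n).2.1.2 y hy).1).apply i j).symm
  have lim := fun y (hy : y ≠ 0) => constr_lim (u := fun n => (u n).1) hy (fun n => dsm (u n)) sd
    (fun n => ((u n).2.1.2 y hy).1.det_pos.ne') (hpos y hy).det_pos.ne'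
    (fun i j k => th i j k y hy) (fun i j k => tK i j k y hy)
  refine ⟨⟨d, ⟨sd, fun y hy => ⟨hpos y hy, ?_⟩⟩, fun y hy => ⟨?_, fun j => ?_⟩, fun m => ?_⟩, conv⟩
  · refine Matrix.IsSymm.ext fun i j => tendsto_nhds_unique (t0 (tK j i 0 y hy)) ?_
    exact (t0 (tK i j 0 y hy)).congr fun n => (((u n).2.1.2 y hy).2.apply i j).symm
  · refine tendsto_nhds_unique (lim y hy).1 ?_
    simp only [((u _).2.2.1 y hy).1]
    exact tendsto_const_nhds
  · refine tendsto_nhds_unique ((lim y hy).2 j) ?_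
    simp only [((u _).2.2.1 y hy).2 j]
    exact tendsto_const_nhds
  · obtain ⟨N, hN⟩ := conv m 1 one_pos
    have h1 := hN N le_rfl
    rw [qm_comm] at h1
    exact (qm_tri m sd (dsm (u N)) hk).trans_lt (ENNReal.add_lt_top.2
      ⟨h1.trans_lt ENNReal.ofReal_lt_top, (u N).2.2.2 m⟩)

/-- Small balls are Baire spaces. -/
theorem baire_ball (hk : DSm (ds M a)) (d0 : DA M a) {c : ℝ} (hc : 0 < c) (h0 : UP d0.1 c) :
    BaireSpace (ball d0 0 (ENNReal.ofReal (c / 6))) := by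
  let _ : PseudoEMetricSpace (DA M a) :=
    PseudoEMetricSpace.ofEDistOfTopology ed ed_self ed_comm ed_tri ed_basis
  let C : Set (DA M a) := {d | qm 0 d.1 d0.1 ≤ ENNReal.ofReal (c / 6)}
  have hC : CompleteSpace C := by
    refine EMetric.complete_of_cauchySeq_tendsto fun u hu => ?_
    obtain ⟨d, hd⟩ := lim_data hk (c := c - 3 * (c / 6)) (by linarith)
      (u := fun n => (u n).1) (fun n => h0.near (by positivity) (u n).2)
      (fun m ε hε => by
        obtain ⟨N, hN⟩ := EMetric.cauchySeq_iff.1 hu (min (ENNReal.ofReal ε) (2⁻¹ ^ m))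
          (lt_min (ENNReal.ofReal_pos.2 hε) (pow_pos' m))
        exact ⟨N, fun n hn n' hn' => (qm_lt_of_ed (hN n hn n' hn')).le⟩)
    have hdC : d ∈ C := by
      refine ENNReal.le_of_forall_pos_le_add fun ε hε _ => ?_
      obtain ⟨N, hN⟩ := hd 0 ε hε
      have h1 := qm_tri 0 (dsm d) (dsm (u N).1) (dsm d0)
      rw [qm_comm 0 d.1 (u N).1.1] at h1
      refine h1.trans ?_
      rw [add_comm]
      exact add_le_add (u N).2 ((hN N le_rfl).trans (by simp))
    refine ⟨⟨d, hdC⟩, tendsto_subtype_rng.2 (tendsto_iff_qm.2 fun m ε hε => ?_)⟩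
    exact eventually_atTop.2 (hd m ε hε)
  have hB : BaireSpace C := inferInstance
  have hsub : ball d0 0 (ENNReal.ofReal (c / 6)) ⊆ C := fun d hd =>
    le_of_lt (show qm 0 d.1 d0.1 < _ from hd)
  exact (IsOpenEmbedding.inclusion hsub
    ((isOpen_ball' d0 0 _).preimage continuous_subtype_val)).baireSpace

/-- **The space of data is a Baire space.** -/
theorem baire (h : |a| < M) (hk : DSm (ds M a)) : BaireSpace (DA M a) := by
  refine baire_of_local fun d => ?_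
  obtain ⟨c, hc, h0⟩ := up_all h d
  exact ⟨_, isOpen_ball' d 0 _, mem_ball_self' d 0 (ENNReal.ofReal_pos.2 (by positivity)),
    baire_ball hk d hc h0⟩

end Vale.Agent.P354XU
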