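import Vale.Agent.P354XE.Defs
import Vale.Agent.P354XD.Base
import Vale.Agent.P354H.Defs

/-!
Rolling, Cauchy stability and geometric uniqueness: definitions and exact statements.
-/

open scoped ContDiff
open Set Filter Topology Matrix

noncomputable section

namespace Vale.Agent.P354XU

open Vale.Agent.P354n (R4 IsConn mink)
open Vale.Agent.P354I (X Dat pd)
open Vale.Agent.P354R (Met Vac Pull)
open Vale.Agent.P354RC (Gm bs)
open Vale.Agent.P354XD (tb)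
open Vale.Agent.P354XE (Tw pt xs pb Lor eT Bd)
open Vale.Agent.P354H (X3)

/-- Frames. -/
abbrev L4 : Type := R4 →L[ℝ] R4

/-- The derivatives of order at most k of f at x are at most c. -/
def Jt {E V : Type} [NormedAddCommGroup E] [NormedSpace ℝ E] [NormedAddCommGroup V]
    [NormedSpace ℝ V] (k : ℕ) (f : E → V) (x : E) (c : ℝ) : Prop :=
  ∀ j ≤ k, ‖iteratedFDeriv ℝ j f x‖ ≤ c

/-- E is an orthonormal frame of g along the smooth map b on the open set Ω. -/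
structure Fr (g : Tw) (D Ω : Set R4) (b : R4 → R4) (E : R4 → L4) : Prop where
  isOpen : IsOpen Ω
  sb : ContDiffOn ℝ ∞ b Ω
  sE : ContDiffOn ℝ ∞ E Ω
  maps : MapsTo b Ω D
  on : ∀ p ∈ Ω, ∀ v w, g (b p) (E p v) (E p w) = mink v w

/-- Rolling: along the lines of the first coordinate, the velocity of b has the components c in the
frame E, and the covariant derivative of E is A. -/
structure Rol (g : Tw) (D Ω : Set R4) (c : R4 → R4) (A : R4 → L4) (b : R4 → R4) (E : R4 → L4) :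
    Prop extends Fr g D Ω b E where
  db : ∀ p ∈ Ω, fderiv ℝ b p eT = E p (c p)
  dE : ∀ p ∈ Ω, ∀ v, fderiv ℝ E p eT v + Gm (tb g) (b p) (E p (c p)) (E p v) = E p (A p v)

/-- The coframe, the connection form, and the second fundamental form for the normal E eT. -/
def th (b : R4 → R4) (E : R4 → L4) (p : R4) : L4 := (E p).inverse.comp (fderiv ℝ b p)
def om (g : Tw) (b : R4 → R4) (E : R4 → L4) (u v p : R4) : R4 :=
  (E p).inverse (fderiv ℝ E p u v + Gm (tb g) (b p) (fderiv ℝ b p u) (E p v))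
def kk (g : Tw) (b : R4 → R4) (E : R4 → L4) (u v p : R4) : ℝ :=
  -g (b p) (E p eT)
    (fderiv ℝ (fderiv ℝ b) p u v + Gm (tb g) (b p) (fderiv ℝ b p u) (fderiv ℝ b p v))

/-- Ω contains the vertical segments from its points to the slice t = 0. -/
def Star (Ω : Set R4) : Prop := ∀ p ∈ Ω, ∀ s ∈ uIcc 0 p.1, (s, p.2) ∈ Ω

/-- The part of the strip 0 ≤ t ≤ T where all φ i are negative. -/
def lens {ι : Type} (φ : ι → R4 → ℝ) (T : ℝ) : Set R4 := {p | p.1 ∈ Icc 0 T ∧ ∀ i, φ i p < 0}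

/-- Isometric immersions with the same first jet at a point agree. -/
def RIG : Prop :=
  ∀ g D g' Ω f1 f2, Pull f1 g' Ω g D → Pull f2 g' Ω g D → IsPreconnected Ω → ∀ p ∈ Ω,
    f1 p = f2 p → fderiv ℝ f1 p = fderiv ℝ f2 p → EqOn f1 f2 Ω

/-- Existence of the rolling on a maximal set. -/
def ROLL : Prop :=
  ∀ (g : Tw) (D U : Set R4) (c : R4 → R4) (A : R4 → L4) (O : Set X3) (b0 : X3 → R4)
    (E0 : X3 → L4), IsOpen D → Met g D → IsOpen U → Star U → ContDiffOn ℝ ∞ c U →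
    ContDiffOn ℝ ∞ A U → (∀ p ∈ U, ∀ v w, mink (A p v) w + mink v (A p w) = 0) → IsOpen O →
    ContDiffOn ℝ ∞ b0 O → ContDiffOn ℝ ∞ E0 O →
    (∀ x ∈ O, (0, x) ∈ U ∧ b0 x ∈ D ∧ ∀ v w, g (b0 x) (E0 x v) (E0 x w) = mink v w) →
    ∃ Ω b E, Rol g D Ω c A b E ∧ Ω ⊆ U ∧ Star Ω ∧ (∀ p ∈ Ω, p.2 ∈ O) ∧
      (∀ x ∈ O, (0, x) ∈ Ω ∧ b (0, x) = b0 x ∧ E (0, x) = E0 x) ∧
      ∀ p ∈ U, p.2 ∈ O → ∀ K ⊆ D, IsCompact K → ∀ C,
        (∀ s ∈ uIcc 0 p.1, (s, p.2) ∈ Ω → b (s, p.2) ∈ K ∧ ‖E (s, p.2)‖ ≤ C) → p ∈ Ω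

/-- Uniqueness and naturality of the rolling. -/
def RU : Prop :=
  (∀ g D Ω Ω' c A b E b' E', IsOpen D → Met g D → Rol g D Ω c A b E → Rol g D Ω' c A b' E' →
    ∀ p : R4, (∀ s ∈ uIcc 0 p.1, (s, p.2) ∈ Ω ∩ Ω') → b (0, p.2) = b' (0, p.2) →
      E (0, p.2) = E' (0, p.2) → b p = b' p ∧ E p = E' p) ∧
  ∀ f g' D' g D Ω c A b E, Pull f g' D' g D → Rol g' D' Ω c A b E →
    Rol g D Ω c A (f ∘ b) fun p => (fderiv ℝ f (b p)).comp (E p)

/-- Cauchy stability of the zero solution of a quasilinear symmetric hyperbolic system on a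
lens. -/
def SYM : Prop :=
  ∀ (V : Type) [NormedAddCommGroup V] [NormedSpace ℝ V] [FiniteDimensional ℝ V] (ι : Type)
    [Fintype ι] (φ : ι → R4 → ℝ) (A : Fin 4 → R4 × V → V →L[ℝ] V →L[ℝ] ℝ)
    (F : R4 × V → V →L[ℝ] ℝ) (N : Set (R4 × V)) (K : Set R4) (T : ℝ),
    IsOpen N → IsCompact K → lens φ T ⊆ K → (∀ i, ContDiff ℝ 1 (φ i)) →
    (∀ μ, ContDiffOn ℝ ∞ (A μ) N) → ContDiffOn ℝ ∞ F N →
    (∀ μ, ∀ x ∈ N, ∀ v w, A μ x v w = A μ x w v) → (∀ p, (p, 0) ∈ N → F (p, 0) = 0) →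
    (∀ p ∈ K, (p, 0) ∈ N ∧ (∀ z ≠ 0, 0 < A 0 (p, 0) z z) ∧ ∀ i, 0 < fderiv ℝ (φ i) p eT ∧
      ∀ z ≠ 0, 0 < ∑ μ, fderiv ℝ (φ i) p (bs μ) * A μ (p, 0) z z) →
    ∀ k, ∀ ε > 0, ∃ m, ∃ δ > 0, ∀ τ ≤ T, ∀ (Z : R4 → V) (O : Set R4), IsOpen O →
      lens φ τ ⊆ O → ContDiffOn ℝ ∞ Z O →
      (∀ p ∈ O, (p, Z p) ∈ N → ∑ μ, A μ (p, Z p) (fderiv ℝ Z p (bs μ)) = F (p, Z p)) →
      (∀ p ∈ lens φ 0, Jt m (fun x : X3 => Z (0, x)) p.2 δ) → ∀ p ∈ lens φ τ, Jt k Z p ε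

/-- The lens of φ is a domain of dependence for the frame E along b. -/
structure Dep {ι : Type} (φ : ι → R4 → ℝ) (K Ω : Set R4) (T : ℝ) (b : R4 → R4) (E : R4 → L4) :
    Prop where
  cpt : IsCompact K
  sub : lens φ T ⊆ K
  dom : K ⊆ Ω
  sm : ∀ i, ContDiff ℝ 1 (φ i)
  inj : ∀ p ∈ K, Function.Injective (fderiv ℝ b p)
  dt : ∀ p ∈ K, ∀ i, 0 < fderiv ℝ (φ i) p eT
  cau : ∀ p ∈ K, ∀ u, mink (th b E p u) (th b E p u) ≤ 0 → 0 < (th b E p u).1 →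
    0 < u.1 ∧ ∀ i, 0 < fderiv ℝ (φ i) p u

/-- E eT is normal to the slice t = 0. -/
def Adp (Ω : Set R4) (b : R4 → R4) (E : R4 → L4) : Prop :=
  ∀ x, (0, x) ∈ Ω → ∀ v, (th b E (0, x) (0, v)).1 = 0

/-- The two rollings are close at p. -/
structure Close (k : ℕ) (g g' : Tw) (b b' : R4 → R4) (E E' : R4 → L4) (p : R4) (ε : ℝ) :
    Prop where
  th : Jt k (fun x => th b' E' x - th b E x) p ε
  om : ∀ u v, Jt k (fun x => om g' b' E' u v x - om g b E u v x) p (ε * (‖u‖ * ‖v‖))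
  met : Bd k (pb b' g' - pb b g) p ε

/-- Cauchy stability: two vacuum metrics rolled with the same c, A from frames adapted to the
slice whose coframes and second fundamental forms are close. -/
def CSU : Prop :=
  ∀ (ι : Type) [Fintype ι] (φ : ι → R4 → ℝ) g D Ω c A b E K T, IsOpen D → Met g D → Vac g D →
    Rol g D Ω c A b E → Dep φ K Ω T b E → Adp Ω b E →
    ∀ k, ∀ ε > 0, ∃ m, ∃ δ > 0, ∀ τ ≤ T, ∀ g' D' Ω' b' E', IsOpen D' → Met g' D' → Vac g' D' →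
      Rol g' D' Ω' c A b' E' → lens φ τ ⊆ Ω' → Adp Ω' b' E' →
      (∀ p ∈ lens φ 0, ∀ i j : Fin 3,
        Jt m (fun x : X3 => th b' E' (0, x) (bs i.succ) - th b E (0, x) (bs i.succ)) p.2 δ ∧
        Jt m (fun x : X3 => kk g' b' E' (bs i.succ) (bs j.succ) (0, x) -
          kk g b E (bs i.succ) (bs j.succ) (0, x)) p.2 δ) →
      ∀ p ∈ lens φ τ, Close k g g' b b' E E' p ε

/-- The data induced by g along J at y are d; P354XE.Ind says this for all y ≠ 0. -/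
def IndAt (g : Tw) (Xf : R4 → R4) (J : X → R4) (d : Dat) (y : X) : Prop :=
  ∃ G n, IsConn g G (J y) ∧ g (J y) n n = -1 ∧ g (J y) n (Xf (J y)) < 0 ∧ ∀ i k,
    g (J y) (pd i J y) n = 0 ∧ g (J y) (pd i J y) (pd k J y) = d.h y i k ∧
    -g (J y) n (pd i (pd k J) y + G (J y) (pd i J y) (pd k J y)) = d.K y i k

/-- J is a smooth spacelike slice over the open set O which induces d. -/
structure Slc (g : Tw) (D : Set R4) (Xf : R4 → R4) (J : X → R4) (d : Dat) (O : Set X) :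
    Prop where
  isOpen : IsOpen O
  sm : ContDiffOn ℝ ∞ J O
  maps : MapsTo J O D
  inj : ∀ y ∈ O, Function.Injective (fderiv ℝ J y)
  ind : ∀ y ∈ O, IndAt g Xf J d y

/-- The Cholesky factor: (chol h)ᵀ * chol h = h for positive definite h. -/
def chol (h : Matrix (Fin 3) (Fin 3) ℝ) : Matrix (Fin 3) (Fin 3) ℝ :=
  !![√(h 0 0), h 0 1 / √(h 0 0), h 0 2 / √(h 0 0);
    0, √(h 1 1 - h 0 1 ^ 2 / h 0 0), (h 1 2 - h 0 1 * h 0 2 / h 0 0) / √(h 1 1 - h 0 1 ^ 2 / h 0 0);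
    0, 0, √(h 2 2 - h 0 2 ^ 2 / h 0 0 -
      (h 1 2 - h 0 1 * h 0 2 / h 0 0) ^ 2 / (h 1 1 - h 0 1 ^ 2 / h 0 0))]

/-- On the slice t = 0, b is J and E is the canonical frame: the future unit normal and the
Cholesky frame of d.h. -/
def St0 (g : Tw) (Xf : R4 → R4) (J : X → R4) (d : Dat) (O : Set X) (b : R4 → R4) (E : R4 → L4) :
    Prop :=
  ∀ y ∈ O, b (pt 0 y) = J y ∧ g (J y) (E (pt 0 y) eT) (Xf (J y)) < 0 ∧
    ∀ i, pd i J y = E (pt 0 y) (pt 0 (WithLp.toLp 2 fun k => chol (d.h y) k i))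

/-- The canonical frame exists and is smooth. -/
def FR0 : Prop :=
  ∀ g D Xf J d O, Lor g D Xf → Slc g D Xf J d O → ∃ E0 : X3 → L4,
    ContDiffOn ℝ ∞ E0 {x | xs (0, x) ∈ O} ∧ St0 g Xf J d O (J ∘ xs) (fun p => E0 p.2) ∧
    ∀ y ∈ O, ∀ v w, g (J y) (E0 (pt 0 y).2 v) (E0 (pt 0 y).2 w) = mink v w

/-- Cauchy stability in terms of the data. -/
def CSD : Prop :=
  ∀ (ι : Type) [Fintype ι] (φ : ι → R4 → ℝ) g D Xf J d O Ω c A b E K T, Lor g D Xf →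
    Slc g D Xf J d O → Rol g D Ω c A b E → St0 g Xf J d O b E → Dep φ K Ω T b E →
    (∀ p ∈ K, p.1 = 0 → xs p ∈ O) →
    ∀ k, ∀ ε > 0, ∃ m, ∃ δ > 0, ∀ τ ≤ T, ∀ g' D' Xf' J' d' O' Ω' b' E', Lor g' D' Xf' →
      Slc g' D' Xf' J' d' O' → Rol g' D' Ω' c A b' E' → St0 g' Xf' J' d' O' b' E' →
      lens φ τ ⊆ Ω' →
      (∀ p ∈ lens φ 0, xs p ∈ O' ∧ ∀ i j, Jt m (fun y => d'.h y i j - d.h y i j) (xs p) δ ∧
        Jt m (fun y => d'.K y i j - d.K y i j) (xs p) δ) →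
      ∀ p ∈ lens φ τ, Close k g g' b b' E E' p ε

/-- Geometric uniqueness: two vacuum metrics with the same data on a slice have the same Gauss
form near the slice. -/
def GU : Prop :=
  ∀ g D Xf J g' D' Xf' J' d O, Lor g D Xf → Lor g' D' Xf' → Slc g D Xf J d O →
    Slc g' D' Xf' J' d O → ∃ Ω b b', Pull b (pb b g) Ω g D ∧ Pull b' (pb b g) Ω g' D' ∧ Star Ω ∧
      (∀ p ∈ Ω, xs p ∈ O ∧ pb b g p eT eT = -1 ∧ ∀ v : R4, v.1 = 0 → pb b g p eT v = 0) ∧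
      ∀ y ∈ O, pt 0 y ∈ Ω ∧ b (pt 0 y) = J y ∧ b' (pt 0 y) = J' y ∧
        g (J y) (fderiv ℝ b (pt 0 y) eT) (Xf (J y)) < 0 ∧
        g' (J' y) (fderiv ℝ b' (pt 0 y) eT) (Xf' (J' y)) < 0

end Vale.Agent.P354XU
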