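import Vale.Agent.P354XU.QDefs
import Vale.Agent.P354XU.Baire
import Vale.Agent.P354XK.KD

/-!
Q1 with the maximal development, the Baire property and density.
-/

open Set Topology

namespace Vale.Agent.P354XU

open Vale.Agent.P354I (X Dat Good)
open Vale.Agent.P354XS (IsWt DD)

/-- The maximal development of good data has no extension. -/
theorem not_ext {d : Dat} (h : Good d) : ¬ Extendible d := fun ⟨N, j, hN, N', ι, c, hc⟩ => by
  obtain ⟨N₀, j₀, h1, -, h2⟩ := h
  obtain ⟨κ, h3, h4, h5⟩ := hN.2 N₀ j₀ h1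
  exact h2 N j κ hN.1 h3 h4 h5 N' ι c hc

theorem baire_dd {M a : ℝ} {ρ : X → ℝ} (h : |a| < M) (hρ : IsWt M a ρ) :
    BaireSpace (DD M a ρ) := by
  obtain ⟨e, -⟩ := P354XQ.exists_homeo P354XQ.eqv P354XK.kd h hρ
  have := baire h (P354XK.kd M a h).1.1
  exact e.isOpenEmbedding.baireSpace

/-- **The strong form follows from the short form.** -/
theorem q1_of (h : P354XS.Q1) : Q1 := fun M a ha hM => ⟨(h M a ha hM).1, fun ρ hρ => by
  obtain ⟨U, h1, h2, h3⟩ := (h M a ha hM).2 ρ hρ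
  have h4 := baire_dd hM hρ
  have h5 : BaireSpace U := h1.isOpenEmbedding_subtypeVal.baireSpace
  refine ⟨h4, U, h1, h2, h3.mono fun d hd hg => not_ext hg hd, h3,
    (dense_of_mem_residual h3).mono fun d hd => ?_⟩
  exact ⟨not_not.1 hd, not_ext (not_not.1 hd)⟩⟩

end Vale.Agent.P354XU
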