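import Vale.Agent.P354XS.Defs

open Set Topology

namespace Vale.Agent.P354XU

open Vale.Agent.P354n (Spc IsC0W1 IsFutureExtension IsIsom)
open Vale.Agent.P354I (X Dat IsDev Good)
open Vale.Agent.P354XS (ds IsWt DD)

/-- N is a maximal globally hyperbolic vacuum development of d: it is a development, and every
development of d embeds into it by an open isometric embedding that respects the embeddings of
the cylinder. -/
def IsMGHD (d : Dat) (N : Spc) (j : X → N.pt) : Prop :=
  IsDev d N j ∧ ∀ N' j', IsDev d N' j' →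
    ∃ κ : N'.pt → N.pt, IsOpenEmbedding κ ∧ IsIsom κ ∧ ∀ y ≠ 0, κ (j' y) = j y

/-- The maximal development of d has a future extension of class C^0 and W^{1,2}_loc. -/
def Extendible (d : Dat) : Prop :=
  ∃ N j, IsMGHD d N j ∧ ∃ N' ι c, IsFutureExtension (IsC0W1 2) N N' ι c

/-- The statement of Q1, with the Baire property and the density of the good data. -/
def Q1 : Prop :=
  ∀ M a : ℝ, a ≠ 0 → |a| < M → (∃ ρ, IsWt M a ρ) ∧ ∀ ρ, IsWt M a ρ → BaireSpace (DD M a ρ) ∧
    ∃ U : Set (DD M a ρ), IsOpen U ∧ (∃ d ∈ U, d.1 = ds M a) ∧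
      IsMeagre {d : U | Extendible d.1.1} ∧ IsMeagre {d : U | ¬ Good d.1.1} ∧
      Dense {d : U | Good d.1.1 ∧ ¬ Extendible d.1.1}

end Vale.Agent.P354XU
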